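import Vale.Agent.P301W.Rows

/-!
# P301W (59): rows REP and ISO
-/

open scoped Manifold ContDiff Topology Matrix
open Filter Set
open Vale.Agent.P272.K Vale.Agent.P299.IX Vale.Agent.P299.IX.Fock
open Vale.Agent.P281Z (Mf)
open Vale.Agent.P281Z.Hg Vale.Agent.P301Z.Lat Vale.Agent.P301W

noncomputable section

namespace Vale.Agent.P301W59

variable {d : ℕ} {V : Mf d}

theorem vl_d {u : Fs V} {F : Chart d V.X → Cm d → Fo d}
    (h : ∀ e x, At e x → vl u e (e x) = F e (e x)) {e : Chart d V.X} {x : V.X} (hx : At e x) :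
    vl ((dR V).d u) e (e x) = dT (F e) (e x) :=
  ((dR_real V).d u e x hx).trans
    ((k1a f1a f1b).congr (G2H.ev_at hx (Eventually.of_forall fun y hy => h e y hy)))

theorem half {u : Fs V} (h : ReF V u) : (2 : ℂ)⁻¹ • (u + (dR V).cj u) = u := by
  rw [h, ← two_smul ℂ, smul_smul]
  simp

theorem rep_row : REP := by
  intro tl d V
  refine ⟨fun a => ?_, fun u hu hr => ?_, fun a u h => ?_⟩
  · obtain ⟨u, O, -, -, h1, -, h2⟩ :=
      tl.loc d 2 t2 (tl.t2 d) V univ univ a.1 isOpen_univ isClosed_univ subset_rfl a.2.1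
    exact ⟨u, fun e x hx => h2 e x hx (h1 trivial)⟩
  · obtain ⟨a, ha, h⟩ := tl.back d 2 t2 (tl.t2 d) V u hu.2
    rw [half hr] at h
    refine ⟨⟨a, ha, fun e x hx => (tl.d2 d _ _ (ha.diff hx)).1 ?_⟩, fun e x hx => (h e x hx).symm⟩
    rw [← vl_d (F := fun e y => t2 (a e y)) (fun e x hx => (h e x hx).symm) hx, hu.1, vl_zero]
  · have hr : ReF V u := ext_F fun e x hx => by rw [vl_cj u hx, h e x hx, (tl.t2 d).cj]
    refine ⟨⟨ext_F fun e x hx => ?_, ext_F fun e x hx => ?_⟩, hr,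
      (Submodule.Quotient.mk_eq_zero _).trans ⟨fun ⟨b, hb, h1⟩ => ?_, fun ⟨β, h1, h2⟩ => ?_⟩⟩
    · rw [vl_d (F := fun e y => t2 (a.1 e y)) h hx, vl_zero]
      exact (tl.d2 d _ _ (a.2.1.diff hx)).2 (a.2.2 e x hx)
    · rw [(dR_real V).dg 2 u e x hx, h e x hx, (tl.t2 d).dg]
    · obtain ⟨β, O, h2, -, h3, -, h4⟩ :=
        tl.loc d 1 t1 (tl.t1 d) V univ univ b isOpen_univ isClosed_univ subset_rfl hb
      refine ⟨β, h2, ext_F fun e x hx => ?_⟩
      rw [vl_d (F := fun e y => t1 (b e y)) (fun e x hx => h4 e x hx (h3 trivial)) hx,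
        tl.d1 d _ _ (hb.diff hx), h e x hx, h1 e x hx]
    · obtain ⟨b, hb, h3⟩ := tl.back d 1 t1 (tl.t1 d) V β h1
      obtain ⟨F, hF, -⟩ := (tl.t2 d).inv
      refine ⟨b, hb, fun e x hx => ?_⟩
      rw [← hF (a.1 e (e x)), ← hF (extDeriv _ _), ← tl.d1 d _ _ (hb.diff hx),
        ← vl_d (F := fun e y => t1 (b e y)) (fun e x hx => (h3 e x hx).symm) hx, map_smul, map_add,
        ← (dR_ok V).cjd, ← h2, half hr, h e x hx]

theorem iso_row : ISO := by
  intro tl rep d r V m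
  obtain ⟨r1, r2, r3⟩ := rep tl d V
  choose U hU using r1
  have un : ∀ {a u}, Rp a u → U a = u := fun h =>
    ext_F fun e x hx => (hU _ e x hx).trans (h e x hx).symm
  obtain ⟨T, hT⟩ := (tl.t2 d).lin
  have h1 : ∀ a b, U (a + b) = U a + U b := fun a b => un fun e x hx => by
    rw [vl_add, hU a e x hx, hU b e x hx, ← hT, ← hT, ← hT, ← map_add]
    rfl
  have h2 : ∀ (c : ℝ) a, U (c • a) = (c : ℂ) • U a := fun c a => un fun e x hx => by
    rw [vl_smul, hU a e x hx, ← hT, ← hT, Complex.coe_smul, ← map_smul]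
    rfl
  let φ : Z2 d V.X →ₗ[ℝ] (Fin r → ℝ) :=
    { toFun := fun a i => (m.c (U a) i).re
      map_add' := fun a b => by
        funext i
        rw [h1, map_add]
        rfl
      map_smul' := fun c a => by
        funext i
        rw [h2, map_smul]
        simp }
  have h3 : ∀ a, m.c (U a) = rc (φ a) := fun a => by
    obtain ⟨c1, c2, -⟩ := r3 a _ (hU a)
    funext i
    have := congrFun (m.cj _ c1) i
    rw [c2] at this
    exact (Complex.conj_eq_iff_re.1 this.symm).symm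
  have h4 : B2 d V.X = LinearMap.ker φ := by
    ext a
    obtain ⟨c1, -, c3⟩ := r3 a _ (hU a)
    rw [← Submodule.Quotient.mk_eq_zero, LinearMap.mem_ker]
    refine c3.trans ((m.ker _ c1).symm.trans ?_)
    rw [h3, ← rc_zero]
    exact ⟨rc_inj, congrArg _⟩
  have h5 : Function.Surjective φ := fun x => by
    obtain ⟨u, c1, c2⟩ := m.onto (rc x)
    obtain ⟨a, ha⟩ := r2 _ ((c1.add c1.cj).smul (2 : ℂ)⁻¹) (by
      rw [ReF, map_smulₛₗ, map_add, (dR_ok V).cjcj, add_comm]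
      simp [map_ofNat])
    refine ⟨a, rc_inj ?_⟩
    rw [← h3, un ha, map_smul, map_add, m.cj u c1, c2]
    funext i
    simp [rc]
    ring
  refine ⟨(Submodule.quotEquivOfEq _ _ h4).trans (φ.quotKerEquivOfSurjective h5), fun a u h => ?_⟩
  rw [← un h, h3]
  rfl

end Vale.Agent.P301W59
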