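import Vale.Agent.P301W13.F11

/-!
# P301W (59): rows T0, T1, D0, D1
-/

open scoped ComplexConjugate Matrix
open Vale.Agent.P272.K Vale.Agent.P299.IX Vale.Agent.P299.IX.Fock
open Vale.Agent.P281Z.Hg Vale.Agent.P301Z.Lat Vale.Agent.P301W Vale.Agent.P301W13

noncomputable section

namespace Vale.Agent.P301W59

variable {d : ℕ}

theorem cv_add (p : Fin (d + d)) (φ ψ : Cm d → ℂ) :
    cv p (fun u => φ u + ψ u) = cv p φ + cv p ψ := by
  induction p using F1bH.idx <;> simp only [cv_hl, cv_ah] <;> ring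

theorem cv_sub (p : Fin (d + d)) (φ ψ : Cm d → ℂ) :
    cv p (fun u => φ u - ψ u) = cv p φ - cv p ψ := by
  induction p using F1bH.idx <;> simp only [cv_hl, cv_ah] <;> ring

theorem cv_mul (p : Fin (d + d)) (c : ℂ) (φ : Cm d → ℂ) :
    cv p (fun u => c * φ u) = c * cv p φ := by
  induction p using F1bH.idx <;> simp only [cv_hl, cv_ah] <;> ring

theorem cv_cont {A : Type} [TopologicalSpace A] (p : Fin (d + d)) {φ : A → Cm d → ℂ}
    (h : ∀ v, Continuous fun a => φ a v) : Continuous fun a => cv p (φ a) := by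
  induction p using F1bH.idx <;> simp only [cv_hl, cv_ah]
  · exact ((h _).sub (continuous_const.mul (h _))).div_const _
  · exact ((h _).add (continuous_const.mul (h _))).div_const _

theorem dr_cv (p : Fin (d + d)) (f : Cm d → ℂ) (z : Cm d) : dr p f z = cv p (fderiv ℝ f z) := by
  induction p using F1bH.idx
  · simp only [dr, cv, hl, Fin.addCases_left, dz]
  · simp only [dr, cv, ah, Fin.addCases_right, dzb]

/-- the coordinates as real linear maps -/
def cxL (l : Fin (d + d)) : Cm d →L[ℝ] ℂ := LinearMap.toContinuousLinearMap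
  { toFun := fun v => cx v l
    map_add' := fun x y => by induction l using F1bH.idx <;> simp [cx_hl, cx_ah]
    map_smul' := fun c x => by induction l using F1bH.idx <;> simp [cx_hl, cx_ah] }

theorem jc_eq {ψ : Cm d → Cm d} {z : Cm d} (h : DifferentiableAt ℝ ψ z) (p l : Fin (d + d)) :
    jc ψ z p l = cv p fun v => cx (fderiv ℝ ψ z v) l := by
  rw [jc, Matrix.of_apply, dr_cv]
  exact congrArg (fun φ : Cm d →L[ℝ] ℂ => cv p φ)
    ((cxL l).hasFDerivAt.comp z h.hasFDerivAt).fderiv

theorem dT_eq {k : ℕ} (T : Alt d k →L[ℝ] Fo d) {f : Cm d → Alt d k} {z : Cm d}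
    (h : DifferentiableAt ℝ f z) : dT (fun y => T (f y)) z =
      ∑ p, eps p *ᵥ fun I => cv p fun v => T (fderiv ℝ f z v) I := by
  refine Finset.sum_congr rfl fun p _ => congrArg _ (funext fun I => ?_)
  rw [Dv, dr_cv]
  exact congrArg (fun φ : Cm d →L[ℝ] ℂ => cv p φ)
    (((ContinuousLinearMap.proj (R := ℝ) (φ := fun _ => ℂ) I).comp T).hasFDerivAt.comp z
      h.hasFDerivAt).fderiv

/-- forms of degree one -/
def on (c : Fin (d + d) → ℂ) : Fo d := ∑ p, c p • (eps p *ᵥ ev ∅)

theorem on_eq (c : Fin (d + d) → ℂ) : on c = epsV c *ᵥ ev ∅ := by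
  simp only [on, epsV, Matrix.sum_mulVec, Matrix.smul_mulVec]

theorem eps_one (p : Fin (d + d)) : eps p *ᵥ ev ∅ = ev {p} :=
  eps_ev_min (I := ∅) fun _ h => absurd h (Finset.notMem_empty _)

theorem on_apply (c : Fin (d + d) → ℂ) (p : Fin (d + d)) : on c {p} = c p := by
  simp only [on, eps_one]
  simp [ev, Finset.sum_apply, Pi.single_apply]

theorem on_dg (u : Fo d) : on (fun p => u {p}) = dg 1 *ᵥ u := by
  ext I
  rw [dg_mulVec]
  split_ifs with h
  · obtain ⟨p, rfl⟩ := Finset.card_eq_one.1 h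
    exact on_apply _ p
  · rw [on, Finset.sum_apply]
    refine Finset.sum_eq_zero fun p _ => ?_
    rw [eps_one, ev, Pi.smul_apply, Pi.single_eq_of_ne, smul_zero]
    rintro rfl
    exact h (Finset.card_singleton p)

theorem dg_on (c : Fin (d + d) → ℂ) : dg 1 *ᵥ on c = on c := by
  rw [← on_dg]
  simp only [on_apply]

/-- conjugation of coefficients -/
def sw (c : Fin (d + d) → ℂ) (p : Fin (d + d)) : ℂ :=
  Fin.addCases (motive := fun _ => ℂ) (fun j => conj (c (ah j))) (fun j => conj (c (hl j))) p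

theorem sw_hl (c : Fin (d + d) → ℂ) (j : Fin d) : sw c (hl j) = conj (c (ah j)) := by
  simp only [sw, hl, Fin.addCases_left]

theorem sw_ah (c : Fin (d + d) → ℂ) (j : Fin d) : sw c (ah j) = conj (c (hl j)) := by
  simp only [sw, ah, Fin.addCases_right]

theorem cjv_on (c : Fin (d + d) → ℂ) : cjv (on c) = on (sw c) := by
  have h : ∀ {ι : Type} (s : Finset ι) (f : ι → Fo d), cjv (∑ i ∈ s, f i) = ∑ i ∈ s, cjv (f i) :=
    fun s f => map_sum (AddMonoidHom.mk' (cjv (d := d)) f1b.cjv_add) f s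
  rw [on, on, h, Fin.sum_univ_add, Fin.sum_univ_add, add_comm]
  congr 1 <;> refine Finset.sum_congr rfl fun j _ => ?_
  · exact (f1b.cjv_smul _ _).trans (by
      rw [show Fin.natAdd d j = ah j from rfl, show Fin.castAdd d j = hl j from rfl, f1b.cjv_ah,
        f1b.cjv_ev, sw_hl]
      rfl)
  · exact (f1b.cjv_smul _ _).trans (by
      rw [show Fin.natAdd d j = ah j from rfl, show Fin.castAdd d j = hl j from rfl, f1b.cjv_hl,
        f1b.cjv_ev, sw_ah]
      rfl)

theorem on_add (c c' : Fin (d + d) → ℂ) : on (c + c') = on c + on c' := by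
  simp only [on, Pi.add_apply, add_smul, Finset.sum_add_distrib]

theorem on_smul (a : ℂ) (c : Fin (d + d) → ℂ) : on (a • c) = a • on c := by
  simp only [on, Pi.smul_apply, smul_eq_mul, Finset.smul_sum, smul_smul]

theorem conj_sum (c : Fin (d + d) → ℂ) (v : Cm d) :
    conj (∑ l, cx v l * c l) = ∑ l, cx v l * sw c l := by
  rw [sum_idx, sum_idx, map_add, map_sum, map_sum, add_comm]
  simp only [cx_hl, cx_ah, sw_hl, sw_ah, map_mul, Complex.conj_conj]

theorem lin1 (a : Alt d 1) : IsLinearMap ℝ fun u : Cm d => ((a ![u] : ℝ) : ℂ) where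
  map_add x y := by
    rw [← Complex.ofReal_add]
    exact congrArg _ (a.toAlternatingMap.map_vecCons_add ![] x y)
  map_smul c x := by
    rw [Complex.real_smul, ← Complex.ofReal_mul]
    exact congrArg _ (a.toAlternatingMap.map_vecCons_smul ![] c x)

theorem lin0 : ∃ T : Alt d 0 →L[ℝ] Fo d, ∀ a, T a = t0 a := by
  refine ⟨⟨⟨⟨t0, fun a b => ?_⟩, fun c a => ?_⟩, ?_⟩, fun _ => rfl⟩
  · simp [t0, add_smul]
  · simp [t0, mul_smul]
  · exact (Complex.continuous_ofReal.comp (continuous_eval_const _)).smul continuous_const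

theorem t0_row : T0 := by
  intro d
  refine ⟨lin0, ⟨LinearMap.toContinuousLinearMap
    { toFun := fun u => ContinuousAlternatingMap.constOfIsEmpty ℝ (Cm d) (Fin 0) (u ∅).re
      map_add' := fun u v => by ext; simp
      map_smul' := fun c u => by ext; simp }, fun a => ?_, fun u => ?_⟩,
    fun a => ?_, fun a => ?_, fun a ψ z _ => ?_⟩
  · ext v
    obtain rfl : v = ![] := Subsingleton.elim _ _
    simp [t0, ev]
  · rw [f1a.dg0, f1b.cjv_smul, f1b.cjv_ev, ← add_smul, smul_smul, t0]
    congr 1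
    show (((u ∅).re : ℝ) : ℂ) = _
    rw [Complex.re_eq_add_conj, div_eq_inv_mul]
    rfl
  · rw [f1a.dg0]
    simp [t0, ev]
  · rw [t0, f1b.cjv_smul, f1b.cjv_ev]
    simp
  · rw [t0, t0, Matrix.mulVec_smul, lam_ev_empty, ContinuousAlternatingMap.compContinuousLinearMap_apply]
    congr 3
    exact Subsingleton.elim _ _

theorem t1_eq (a : Alt d 1) : t1 a = on fun p => cv p fun v => ((a ![v] : ℝ) : ℂ) := rfl

theorem lin1' : ∃ T : Alt d 1 →L[ℝ] Fo d, ∀ a, T a = t1 a := by
  refine ⟨⟨⟨⟨t1, fun a b => ?_⟩, fun c a => ?_⟩, ?_⟩, fun _ => rfl⟩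
  · rw [t1_eq, t1_eq, t1_eq, ← on_add]
    congr 1
    funext p
    simp only [Pi.add_apply, ← cv_add, ContinuousAlternatingMap.add_apply, Complex.ofReal_add]
  · show t1 (c • a) = c • t1 a
    rw [t1_eq, t1_eq, ← Complex.coe_smul, ← on_smul]
    congr 1
    funext p
    simp only [Pi.smul_apply, smul_eq_mul, ← cv_mul, ContinuousAlternatingMap.smul_apply,
      Complex.ofReal_mul]
  · show Continuous fun a : Alt d 1 =>
      ∑ p, cv p (fun v => ((a ![v] : ℝ) : ℂ)) • (eps p *ᵥ ev ∅ : Fo d)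
    refine continuous_finsetSum _ fun p _ => Continuous.smul
      (cv_cont (φ := fun (a : Alt d 1) v => ((a ![v] : ℝ) : ℂ)) p fun v => ?_)
      (continuous_const (y := (eps p *ᵥ ev ∅ : Fo d)))
    exact Complex.continuous_ofReal.comp (continuous_eval_const _)

/-- the real one-form of a vector -/
def re1 (u : Fo d) : Alt d 1 := ContinuousAlternatingMap.ofSubsingleton ℝ (Cm d) ℝ (0 : Fin 1)
  (Complex.reCLM.comp (∑ p, (ContinuousLinearMap.mul ℝ ℂ (u {p})).comp (cxL p)))

theorem re1_apply (u : Fo d) (v : Fin 1 → Cm d) :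
    re1 u v = (∑ p, cx (v 0) p * u {p}).re := by
  show ((∑ p, (ContinuousLinearMap.mul ℝ ℂ (u {p})).comp (cxL p)) (v 0)).re = _
  rw [sum_apply]
  exact congrArg _ (Finset.sum_congr rfl fun p _ => mul_comm _ _)

theorem t1_row : T1 := by
  intro d
  refine ⟨lin1', ⟨LinearMap.toContinuousLinearMap
    { toFun := re1
      map_add' := fun u v => by
        ext w
        simp [re1_apply, mul_add, Finset.sum_add_distrib]
      map_smul' := fun c u => by
        ext w
        simp only [re1_apply, Pi.smul_apply, mul_smul_comm, ← Finset.smul_sum, Complex.smul_re,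
          RingHom.id_apply, ContinuousAlternatingMap.smul_apply] }, fun a => ?_, fun u => ?_⟩,
    fun a => dg_on _, fun a => ?_, fun a ψ z h => ?_⟩
  · ext v
    show re1 (t1 a) v = a v
    simp only [re1_apply, t1_eq, on_apply]
    rw [← expand (lin1 a), Complex.ofReal_re]
    congr 1
    funext i
    fin_cases i
    rfl
  · show t1 (re1 u) = _
    rw [← on_dg, cjv_on, ← on_add, ← on_smul, t1_eq]
    congr 1
    funext p
    simp only [re1_apply, Complex.re_eq_add_conj, conj_sum, div_eq_inv_mul, cv_mul, cv_add,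
      Matrix.cons_val_zero, cv_sum]
    rfl
  · rw [t1_eq, cjv_on]
    congr 1
    funext p
    induction p using F1bH.idx <;>
      simp [sw_hl, sw_ah, cv_hl, cv_ah, sub_eq_add_neg, map_ofNat]
  · rw [t1_eq, t1_eq, on_eq, on_eq, Matrix.mulVec_mulVec, lam_epsV, ← Matrix.mulVec_mulVec,
      lam_ev_empty]
    congr 2
    funext p
    have h1 : ∀ v, ((a.compContinuousLinearMap (fderiv ℝ ψ z) ![v] : ℝ) : ℂ) =
        ∑ l, cv l (fun v => ((a ![v] : ℝ) : ℂ)) * cx (fderiv ℝ ψ z v) l := fun v => by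
      simp only [mul_comm (cv _ _)]
      rw [← expand (lin1 a), ContinuousAlternatingMap.compContinuousLinearMap_apply]
      congr 2
      funext i
      fin_cases i
      rfl
    simp only [h1, cv_mul_sum, Matrix.mulVec, dotProduct, jc_eq h]
    exact Finset.sum_congr rfl fun l _ => mul_comm _ _

theorem d0_row : D0 := by
  intro d f z h
  obtain ⟨T, hT⟩ := lin0 (d := d)
  simp only [← hT]
  rw [dT_eq T h, t1_eq, on]
  refine Finset.sum_congr rfl fun p _ => ?_
  rw [← Matrix.mulVec_smul]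
  congr 1
  funext I
  simp only [hT, t0, Pi.smul_apply, smul_eq_mul, mul_comm _ (ev ∅ I), cv_mul]
  congr 2
  funext v
  rw [extDeriv, ContinuousAlternatingMap.alternatizeUncurryFin_apply, Fin.sum_univ_succ,
    Fin.sum_univ_zero, add_zero, Fin.val_zero, pow_zero, one_smul, Matrix.cons_val_zero]
  congr 2

theorem d1_row : D1 := by
  intro d b z h
  obtain ⟨T, hT⟩ := lin1' (d := d)
  simp only [← hT]
  set A : Mx (d + d) :=
    Matrix.of fun p q => cv p fun v => cv q fun w => ((fderiv ℝ b z v ![w] : ℝ) : ℂ) with hA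
  have h1 : cm (extDeriv b z) = A + (-1 : ℂ) • Aᵀ := by
    ext p q
    rw [neg_one_smul, ← sub_eq_add_neg, Matrix.sub_apply, Matrix.transpose_apply, hA,
      Matrix.of_apply, Matrix.of_apply, cv_comm q p, ← cv_sub, cm, Matrix.of_apply]
    congr 1
    funext u
    rw [← cv_sub]
    congr 1
    funext v
    rw [← Complex.ofReal_sub]
    have e0 : (0 : Fin 2).removeNth ![u, v] = ![v] := by
      funext i
      fin_cases i
      rfl
    have e1 : (1 : Fin 2).removeNth ![u, v] = ![u] := by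
      funext i
      fin_cases i
      rfl
    refine congrArg _ ((ContinuousAlternatingMap.alternatizeUncurryFin_apply _ _).trans
      ((Fin.sum_univ_two _).trans ?_))
    rw [e0, e1]
    simp [sub_eq_add_neg]
  rw [dT_eq T h, t2, h1, PwaX.tw_add, PwaX.tw_smul, PwaX.tw_tr, neg_one_smul, neg_neg,
    PwaX.tw_eq, ← Finset.sum_add_distrib]
  refine Finset.sum_congr rfl fun p _ => ?_
  rw [← Finset.sum_add_distrib]
  simp only [← add_smul, add_halves]
  have h2 : ∑ q, A p q • PwaX.ee p q = eps p *ᵥ ∑ q, A p q • (eps q *ᵥ ev ∅) := by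
    simp only [PwaX.ee, Matrix.mulVec_sum, Matrix.mulVec_smul]
  rw [h2]
  congr 1
  funext I
  simp only [hT, t1, Finset.sum_apply, Pi.smul_apply, smul_eq_mul]
  simp only [mul_comm _ ((eps _ *ᵥ ev ∅ : Fo d) I), cv_mul_sum]
  rfl

end Vale.Agent.P301W59
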